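import Mathlib
import Vale.Agent.P196.Defs
import Vale.Agent.P196.S0.Simple

/-!
# P196: group-theoretic glue for the final theorem
-/

namespace Vale.Agent.P196.FIN

open Vale.Agent.P196.S0

/-- A quotient of a finitely presented group by a finitely generated central (or just normal)
subgroup is finitely presented. -/
theorem fp_of_surjective_ker_fg {H A : Type*} [Group H] [Group A]
    [Group.IsFinitelyPresented H] (π : H →* A) (hπ : Function.Surjective π)
    (hK : (π.ker).FG) : Group.IsFinitelyPresented A := by
  have : Group.FG π.ker := (Group.fg_iff_subgroup_fg _).2 hK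
  exact Group.IsFinitelyPresented.of_surjective π hπ
    (Subgroup.IsFinitelyNormallyGenerated.of_FG _)

/-- The same when the kernel is finite. -/
theorem fp_of_surjective_ker_finite {H A : Type*} [Group H] [Group A]
    [Group.IsFinitelyPresented H] (π : H →* A) (hπ : Function.Surjective π)
    (hK : (π.ker : Set H).Finite) : Group.IsFinitelyPresented A := by
  have : Finite π.ker := hK
  exact Group.IsFinitelyPresented.of_surjective π hπ
    (Subgroup.IsFinitelyNormallyGenerated.of_FG _)

/-- Finite presentability from Theorem P (`H` f.p., `H / Z(H) ≃ A`) and Theorem S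
(every perfect central extension of `A` has finitely generated kernel). -/
theorem fp_of_P_S {H A : Type*} [Group H] [Group A] [Group.IsFinitelyPresented H]
    (hperf : commutator H = ⊤) (e : (H ⧸ Subgroup.center H) ≃* A)
    (hS : ∀ (π : H →* A), Function.Surjective π → π.ker ≤ Subgroup.center H →
      commutator H = ⊤ → (π.ker).FG) :
    Group.IsFinitelyPresented A := by
  set π : H →* A := (e : (H ⧸ Subgroup.center H) →* A).comp (QuotientGroup.mk' _) with hπ
  have hsurj : Function.Surjective π := e.surjective.comp (QuotientGroup.mk'_surjective _)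
  have hker : π.ker ≤ Subgroup.center H := by
    intro x hx
    rw [MonoidHom.mem_ker, hπ, MonoidHom.comp_apply] at hx
    have h1 : QuotientGroup.mk' (Subgroup.center H) x = 1 := by
      apply e.injective
      rw [map_one]
      exact hx
    simpa using h1
  exact fp_of_surjective_ker_fg π hsurj (hS π hsurj hker hperf)

/-- Skeleton of the final theorem. -/
theorem final {ι : Type} [Fintype ι] [DecidableEq ι] (hι : 5 ≤ Fintype.card ι)
    {LS : Set (Set Z2)} (hLS : LocalSets LS)
    (hfp : Group.IsFinitelyPresented (grp ι LS))
    (ham : Vale.Agent.P196.IsAmenable (grp ι LS)) :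
    ∃ (G : Type) (_ : Group G), Infinite G ∧ Group.IsFinitelyPresented G ∧ IsSimpleGroup G ∧
      Vale.Agent.P196.IsAmenable G :=
  ⟨grp ι LS, inferInstance, infinite_grp hι, hfp, isSimple hι hLS, ham⟩

end Vale.Agent.P196.FIN
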